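import Crest.Agent.X212.Nd18.Fk
import Crest.Agent.X212.Brk99.Glue
import Crest.Agent.X212.Geo48.Nk
import Crest.Agent.X212.Fin37.Defs

/-!
# Row 212, SB (helper84): abelian monopoles on the right of `a`, the leaves

`wl t true = h`, `wl t false = b`.
-/

set_option autoImplicit false
set_option linter.unusedSectionVars false
noncomputable section
open scoped Manifold ContDiff Topology InnerProductSpace
open MeasureTheory Set Function Filter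
open Crest.Agent.R208.F (Ext)

namespace Crest.Agent.X212.Sb84
open An M G75 Nd18 Fk18
open An.Job (Sol)
open Loc8 (Rd oz RL)
open Abel74 (RedOn)
open Brk99 (Fx Gm)
open Dr59 (ip Lat HZ)
open Line51 (Ln)
open Br55 (CN)

/-- steps between the arc lengths `s e` and `s' e`: up on `h`, down on `b` -/
structure Wd where
  θ : Bool → ℝ → ℝ
  s : Bool → ℝ
  s' : Bool → ℝ

/-- `t e` is the parameter of the neck, `δ` the slope -/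
structure Wd.OK (w : Wd) (t : Bool → ℝ) (δ : ℝ) : Prop where
  s0 : ∀ e, 0 < w.s e
  s1 : ∀ e, w.s' e < nl (t e)
  sm : ∀ e, ContDiff ℝ ∞ (w.θ e)
  lo : ∀ e, ∀ r ≤ w.s e, w.θ e r = bif e then 0 else 1
  hi : ∀ e r, w.s' e ≤ r → w.θ e r = bif e then 1 else 0
  mem : ∀ e r, w.θ e r ∈ Icc (0 : ℝ) 1
  bd : ∀ e r, |deriv (w.θ e) r| ≤ δ

variable {κ lam : Type} [Fintype κ] [Fintype lam]

section gen
variable (κ lam)

/-- **LEAF GLW**: `Brk99.glue` with weights -/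
def GlwStmt : Prop := ∀ (Z Z' : Mf 4) (ι : Type) [Fintype ι] (Y : ι → Mf 3) [∀ a, CompactSpace (Y a).M]
  [∀ a, ConnectedSpace (Y a).M] [Nonempty Z.M] (D : ∀ a, YD (Y a).I (Y a).M κ lam)
  (B : Base Z.M (Option κ) lam) (G : Geo Z.I Z.M (Option κ) lam) (B' : Base Z'.M (Option κ) lam)
  (K : ∀ a, Bool → Nk (D a) B G) (φ : Z.M → Z'.M) (S : ι → Set Z.M) (x : Cfg Z.M (Option κ) lam 0)
  (β : ∀ a, YC (Y a).M κ lam) (ζ : ι → Bool → Circle) (ξ : Z.M → x.m.A) (Q P : Set Z'.M) (γ : ℝ),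
  Fx K φ S → B.OK Z.I → G.OK B → B'.OK Z'.I → (∀ a, (D a).OK) → x.Adm B G → (∀ a, (D a).Adm (β a)) →
  (∀ a z, (cy (β a)).m.Fg (D a).Z (cy (β a)).W z = 0) →
  (∀ a b, (K a b).Lim x (β a) (ζ a b) (bif b then atBot else atTop)) → IsOpen Q → IsCompact P →
  RedOn G.F x.m x.W (φ ⁻¹' Q) ξ → (∀ a b, (K a b).ψ.target ⊆ φ ⁻¹' Q) →
  IntegrableOn (fun z => ‖x.m.Fg G.F x.W z‖ ^ 2) (φ ⁻¹' P) G.F.μ → 0 < γ →
  ∃ R > 0, ∀ (G' : Geo Z'.I Z'.M (Option κ) lam) (K' : ∀ a, Nk (D a) B' G') (l : ι → ℝ), G'.OK B' →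
    Gm K φ R K' l → ∃ y : Cfg Z'.M (Option κ) lam 0, y.Adm B' G' ∧ (∃ ξ', Rd G'.F y.m y.W Q ξ') ∧
      ∀ f : Z'.M → ℝ, Measurable f → (∀ z, |f z| ≤ 1) →
        |∫ z in P, f z * ‖y.m.Fg G'.F y.W z‖ ^ 2 ∂G'.F.μ -
          ∫ z in φ ⁻¹' P, f (φ z) * ‖x.m.Fg G.F x.W z‖ ^ 2 ∂G.F.μ| ≤ γ ∧
        |∫ z in P, f z * y.m.kd B' G'.F y.W z ∂G'.F.μ -
          ∫ z in φ ⁻¹' P, f (φ z) * x.m.kd B G.F x.W z ∂G.F.μ| ≤ γ

/-- **LEAF CLS**: any connection can be closed up, it does not change off the ends -/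
def ClsStmt : Prop := ∀ (Z Z' : Mf 4) (ι : Type) [Fintype ι] (Y : ι → Mf 3) [∀ a, CompactSpace (Y a).M]
  [Nonempty Z.M] (D : ∀ a, YD (Y a).I (Y a).M κ lam)
  (B : Base Z.M (Option κ) lam) (G : Geo Z.I Z.M (Option κ) lam) (B' : Base Z'.M (Option κ) lam)
  (K : ∀ a, Bool → Nk (D a) B G) (φ : Z.M → Z'.M) (S : ι → Set Z.M) (x : Cfg Z.M (Option κ) lam 0)
  (β : ∀ a, YC (Y a).M κ lam), Fx K φ S → B.OK Z.I → G.OK B → B'.OK Z'.I → (∀ a, (D a).OK) →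
  x.Adm B G → (∀ a, (D a).Adm (β a)) →
  (∀ a a' b b', (a, b) ≠ (a', b') → Disjoint (K a b).ψ.target (K a' b').ψ.target) →
  ∃ R > 0, ∀ (G' : Geo Z'.I Z'.M (Option κ) lam) (K' : ∀ a, Nk (D a) B' G') (l : ι → ℝ), G'.OK B' →
    Gm K φ R K' l → ∃ y : Cfg Z'.M (Option κ) lam 0, y.Adm B' G' ∧ ∀ Q : Set Z'.M, IsOpen Q →
      Q ⊆ φ '' (⋃ a, ⋃ b, (K a b).ψ.target)ᶜ →
      (∀ ξ, RedOn G.F x.m x.W (φ ⁻¹' Q) ξ → ∃ ξ', Rd G'.F y.m y.W Q ξ') ∧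
      ∀ (P : Set Z'.M) (f : Z'.M → ℝ), MeasurableSet P → P ⊆ Q →
        ∫ z in P, f z * ‖y.m.Fg G'.F y.W z‖ ^ 2 ∂G'.F.μ =
          ∫ z in φ ⁻¹' P, f (φ z) * ‖x.m.Fg G.F x.W z‖ ^ 2 ∂G.F.μ ∧
        ∫ z in P, f z * y.m.kd B' G'.F y.W z ∂G'.F.μ =
          ∫ z in φ ⁻¹' P, f (φ z) * x.m.kd B G.F x.W z ∂G.F.μ

end gen

variable [DecidableEq lam]

section world
variable {X : Mf 4} {A : Type} [Fintype A] {M : Mark X A κ}

/-- the arc length along the neck `a` with the parameter `t` -/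
def ar (C : Caps M) (c : M.Cl) (t : ℝ) (a : A) (z : (C.Z c).M) : ℝ := len t false (Cht98.hZ C c a z)

/-- the cut-off: `1` between the windows at `x true` and `x false` -/
def Wd.g (w : Wd) (C : Caps M) (c : M.Cl) (t : Bool → ℝ) (x : Bool → A) (z : (C.Z c).M) : ℝ :=
  w.θ true (ar C c (t true) (x true) z) * w.θ false (ar C c (t false) (x false) z)

/-- the windows -/
def Wd.K (w : Wd) (C : Caps M) (c : M.Cl) (t : Bool → ℝ) (x : Bool → A) : Set (C.Z c).M :=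
  ⋃ e, ar C c (t e) (x e) ⁻¹' Icc (w.s e) (w.s' e)

/-- `Λ + v` is characteristic for the lines that are trivial off a compact subset of `O` -/
def Tst (N : ML M lam) (O : Set X.M) (v : X.M → Ext X.E) : Prop :=
  ∀ K a, IsCompact K → K ⊆ O → RL X.I K a → ∃ n : ℤ,
    ip X.I M.o (Ln.F X.I ⟨N.p, 0⟩ + v) a + ip X.I M.o a a = 2 * n * (2 * Real.pi) ^ 2

variable (M) in
/-- two long necks on rational homology spheres -/
structure Two (x : Bool → A) (cs : ℝ) (c : M.Cl) (p : Prm A) : Prop where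
  par : p.2 ∈ M.sys.Par
  inf : Sys.inf p.2 = c.1
  fr : ∀ e, x e ∈ M.sys.fr c.1
  pin : ∀ e, ¬M.pin (x e)
  half : ∀ e, 1 / 2 ≤ p.2 (x e)
  yc : ∀ e, Loc8.YC M (x e) cs
  qhs : ∀ e, HZ (M.bn (x e)).Y.I 2 (univ : Set (M.bn (x e)).Y.M)
  ord : ∀ e, (M.sys.w (x (!e))).band ⊆ (M.sys.w (x e)).sd e

/-- a connection that is reducible over the part `O` of the piece `π`, with bounds `k`, `en` -/
structure Stg {W : World M} {N : ML M lam} (Λ : Lns W N) (m : M.Cl) (x : Bool → A) (cs : ℝ) (w : Wd)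
    (t : Bool → ℝ) (O : Set X.M) (k en : ℝ) (c : M.Cl) (p : Prm A) (π : Reg A)
    (y : Cfg (W.Z c).M (Option κ) (lam ⊕ lam) 0) : Prop where
  two : Two M x cs c p
  ht : ∀ e, p.2 (x e) = t e
  pc : M.sys.Piece c.1 π
  hO : O = M.sys.U π ∩ hf M (x true) true
  adm : y.Adm (Λ.B m c) (Λ.G m c p)
  rd : ∃ ξ, Rd (Λ.G m c p).F y.m y.W (oz W.toCaps c O) ξ
  kd : ∫ z in W.pc c π, w.g W.toCaps c t x z * y.m.kd (Λ.B m c) (Λ.G m c p).F y.W z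
    ∂(Λ.G m c p).F.μ ≤ k
  en : ∫ z in W.pc c π ∩ w.K W.toCaps c t x, ‖y.m.Fg (Λ.G m c p).F y.W z‖ ^ 2 ∂(Λ.G m c p).F.μ ≤ en

variable (κ lam) in
/-- **LEAF CORE** (TOP-c): the class of a reducible connection on a compact piece -/
def CoreStmt : Prop := ∀ cs δ : ℝ, ∃ C : ℝ, 0 ≤ C ∧ ∀ (X : Mf 4) (A : Type) [Fintype A] (M : Mark X A κ)
  (W : World M) (N : ML M lam) (Λ : Lns W N) m x w t O k en c p π y, w.OK t δ →
  Stg Λ m x cs w t O k en c p π y → (∀ a ∈ c.1, M.pin a) →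
  ∃ v, Dr59.Cl X.I 2 O v ∧ Tst N O v ∧ ∀ (ι : Type) [Fintype ι] [DecidableEq ι]
    (e : ι → X.M → Ext X.E) (d : ι → ℝ) (V : Set X.M),
    V = O ∩ (M.sys.w (x true)).sd true ∩ (M.sys.w (x false)).sd false →
    Lat X.I M.o V V e (Matrix.diagonal d) →
    -(∑ n, (ip X.I M.o v (e n) / (2 * Real.pi)) ^ 2 / d n) / 4 ≤ k + C * en

variable (κ lam) in
/-- **LEAF GLU-3**: all cylindrical walls are closed up (from `ClsStmt`, `Geo48.geo`) -/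
def Gl3Stmt : Prop := ∀ (X : Mf 4) (A : Type) [Fintype A] (M : Mark X A κ) (W : World M) (N : ML M lam)
  (Λ : Lns W N) (Bs : Bas X univ) (bs : LBas X univ) m x cs w t δ O k en c p π y, W.Nrm → Λ.Nrm →
  Std W Bs → LStd Λ bs → w.OK t δ → Stg Λ m x cs w t O k en c p π y →
  (∀ a ∈ c.1, ¬M.pin a → a ∈ m.1 ∧ ∃ β, (N.cy a).yd.Adm β) →
  (∀ a ∈ Sys.bd π, M.pin a ∨ π a = some true ∧ Disjoint (hf M a false) (hf M (x true) true)) →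
  ∃ d p' π' y', (∀ a ∈ d.1, M.pin a) ∧ Stg Λ m x cs w t O k en d p' π' y'

variable {Wi : Type} {W : World M} {N : ML M lam} {Λ : Lns W N} {A' h : Type} [Fintype A']
  [DecidableEq A'] [Fintype h] {r n : ℕ} (J : Job Wi Λ A' h r n)

/-- **LEAF RED** (TOP-a): fixed pieces with spinor are reducible -/
def RedJ : Prop := J.OK → ∀ σ ∈ J.𝒦, ∀ (c : M.Cl) q (y : J.Obc c) π, Sol σ q y → M.sys.Piece c.1 π →
  y.TF π → FixP y π → ∃ ξ, RedOn (J.G c y.s).F y.x.m y.x.W (W.pc c π) ξ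

/-- **LEAF L2E**: the curvature is square integrable away from the ends with curved limits -/
def L2J : Prop := J.OK → ∀ σ ∈ J.𝒦, ∀ (c : M.Cl) q (y : J.Obc c) (C : Set (W.Z c).M), Sol σ q y →
  IsClosed C → (∀ a b (ha : Act J.m c a (some b) (J.Θ y.s)), Disjoint C (J.K c a _ _ ha).ψ.target ∨
    (∃ γ, Rdc90.Bs (J.xs a).D γ ∧ (J.xs a).D.Eqv (y.β a b) γ) ∧ ∃ d > 0,
      (J.K c a _ _ ha).ELim d y.x (y.β a b) (y.ζ a b) (bif b then atBot else atTop)) →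
  IntegrableOn (fun z => ‖y.x.m.Fg (J.G c y.s).F y.x.W z‖ ^ 2) C (J.G c y.s).F.μ

end world

variable {Lm : LM κ lam} {y₀ : G75.YD κ lam} {S : Scene Lm}

/-- the walls of the windows -/
def wl (t : TD y₀ S) (e : Bool) : S.A := bif e then t.h else t.b

/-- the part of a region on the right of `h` -/
def Oh (t : TD y₀ S) (π : Reg S.A) : Set S.X.M := S.M.sys.U π ∩ hf S.M t.h true

variable {P : Pk y₀} {z : Z0 P S} (Z : Z1 z)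

variable {Z} in
/-- the parameters of the necks -/
abbrev tw (y : Z.Ob) (e : Bool) : ℝ := (Z.J.Θ y.s).2 (wl z.t e)

variable {Z} in
/-- the cut-off on `Z e` -/
abbrev gw (w : Wd) (y : Z.Ob) := w.g z.D.W.toCaps Z.e (tw y) (wl z.t)

variable {Z} in
/-- the windows on `Z e` -/
abbrev Kw (w : Wd) (y : Z.Ob) := w.K z.D.W.toCaps Z.e (tw y) (wl z.t)

variable {Z} in
/-- the energy over `O` -/
abbrev En (y : Z.Ob) (O : Set (z.D.W.Z Z.e).M) : ℝ :=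
  ∫ x in O, ‖y.x.m.Fg (Z.J.G Z.e y.s).F y.x.W x‖ ^ 2 ∂(Z.J.G Z.e y.s).F.μ

/-- windows with bounded energy; the head and the tail have bounded negative level -/
def AnAt (C δ : ℝ) (Adm : (Z.F.Wi →₀ ℝ) → Prop) : Prop := ∀ q (y : Z.Ob), Adm q → Sol Z.ce q y →
  ∃ w : Wd, w.OK (tw y) δ ∧ En y (Kw w y) ≤ C ∧ ∀ Q ⊆ Z.Rg true, -C ≤ ∑ π ∈ Q,
    ∫ x in z.D.W.pc Z.e (ou Z.e π), (1 - gw w y x) * y.kd x ∂(Z.J.G Z.e y.s).F.μ

/-- the inputs at the walls -/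
abbrev Inp : Prop := An.Sml fun Adm => Fin37.ELM Z.J Adm ∧ Fin37.CHH Z.J Adm

variable (Lm)

/-- **LEAF AN** (DAT + GEO + UAPR + WIN + C0 + HT) -/
def AnStmt : Prop := ∀ (y₀ : G75.YD κ lam) (P : Pk y₀), P.OK → ∃ C δ : ℝ,
  ∀ (S : Scene Lm) (t : TD y₀ S) R c d, t.OK R c → CN S d c → c ≠ 0 → ∃ D,
    ∀ n m (k : Fin (n + 1)), ↑k ≤ m →
    ∀ᶠ T in 𝓝[<] (1 : ℝ), ∀ Z : Z1 (⟨t, c, d, n, D, m, k⟩ : Z0 P S), Z.OK T → Z.Sm → Inp Z →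
      An.Sml (AnAt Z C δ)

/-- **LEAF YC**: the cross-sections of the windows -/
def YcStmt : Prop := ∀ y₀ : G75.YD κ lam, y₀.OK → ∃ cs, ∀ (S : Scene Lm) (t : TD y₀ S) R c d,
  t.OK R c → CN S d c → ∀ e, Loc8.YC S.M (wl t e) cs ∧
    HZ (S.M.bn (wl t e)).Y.I 2 (univ : Set (S.M.bn (wl t e)).Y.M) ∧
    (S.M.sys.w (wl t (!e))).band ⊆ (S.M.sys.w (wl t e)).sd e ∧
    Disjoint (hf S.M t.a false) (hf S.M t.h true)

/-- **LEAF CHR** (TOP-d) -/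
def ChrStmt : Prop := ∀ (y₀ : G75.YD κ lam) (S : Scene Lm) (t : TD y₀ S) R c d i σ (e : Finset S.A) π v,
  y₀.OK → t.OK R c → CN S d c → c i σ ≠ 0 → e ⊆ σ → (∀ a ∈ e, S.M.pin a) → t.Pc true e π →
  Dr59.Cl S.X.I 2 (Oh t π) v → Tst (S.N i) (Oh t π) v → S.Chr i e (t.op π) (t.V π) v

/-- **LEAF GLU-1+2**: the broken lens walls in `π` are filled and glued -/
def Gl2Stmt : Prop := ∀ (y₀ : G75.YD κ lam) (P : Pk y₀) (S : Scene Lm) (z : Z0 P S) R (Z : Z1 z) T δ Adm q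
  (y : Z.Ob) π cs (w : Wd) δ' γ, z.OK R → Z.OK T → Z.Sm → 0 < δ → Z.LxAt δ Adm → Fin37.ELM Z.J Adm →
  Adm q → Sol Z.ce q y → π ∈ Z1.FR y true → FixP y (ou Z.e π) →
  Two S.M (wl z.t) cs Z.e (Z.J.Θ y.s) → Disjoint (hf S.M z.t.a false) (hf S.M z.t.h true) →
  w.OK (tw y) δ' → 0 < γ → ∃ p' y', Stg (z.D.Λ Z.i) Z.J.m (wl z.t) cs w (tw y) (Oh z.t π)
    (Z1.Kp y π - ∫ x in z.D.W.pc Z.e (ou Z.e π), (1 - gw w y x) * y.kd x ∂(Z.J.G Z.e y.s).F.μ + γ)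
    (En y (z.D.W.pc Z.e (ou Z.e π) ∩ Kw w y) + γ) (Geo48.dc Z.e π) p' π y'

/-- `SbStmt` with the inputs at the walls -/
def SbStmt' : Prop := ∀ (y₀ : G75.YD κ lam) (P : Pk y₀), P.OK → ∃ C₀ : ℝ,
  ∀ (S : Scene Lm) (t : TD y₀ S) R c d, t.OK R c → CN S d c → c ≠ 0 → ∃ D,
    ∀ n m (k : Fin (n + 1)), ↑k ≤ m →
    ∀ᶠ T in 𝓝[<] (1 : ℝ), ∀ Z : Z1 (⟨t, c, d, n, D, m, k⟩ : Z0 P S), Z.OK T → Z.Sm →
      (∃ δ > 0, An.Sml (Z.LxAt δ)) → Inp Z → An.Sml fun Adm => Z.SbAt Adm C₀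

end Crest.Agent.X212.Sb84
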