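import Crest.Agent.X212.Sb84.Defs
import Crest.Agent.X212.Rb56.Main
import Crest.Agent.X212.Tm38.Abw
import Crest.Agent.X212.Loc8.Ab
import Crest.Agent.X212.Bki64.Lm

/-!
# Row 212, SB (helper84): the assembly
-/

set_option autoImplicit false
set_option linter.unusedSectionVars false
noncomputable section
open scoped Manifold ContDiff Topology
open MeasureTheory Set Function Filter

namespace Crest.Agent.X212.Sb84
open An M G75 Nd18 Fk18 Pj41 Cht98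
open An.Job (Sol)
open Tmp64 (admOn_univ)

variable {κ lam : Type} [Fintype κ] [Fintype lam] [DecidableEq lam]

theorem Wd.cpt {X : Mf 4} {A : Type} [Fintype A] {M : Mark X A κ} (C : Caps M) {c : M.Cl} {p : Prm A}
    {x : Bool → A} {cs δ : ℝ} {w : Wd} {t : Bool → ℝ} (h : Two M x cs c p) (ht : ∀ e, p.2 (x e) = t e)
    (hw : w.OK t δ) : IsCompact (w.K C c t x) := by
  refine isCompact_iUnion fun e => ?_
  have l : t e < 1 := (ht e).ge.trans_lt (Geo48.mem_O h.par h.inf p.1 _ (h.fr e))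
  have d : ∀ s, s ∈ dom (t e) false := fun _ => .inl l
  have ct : Continuous (ar C c (t e) (x e)) := (continuousOn_univ.1
    ((contDiffOn_len (t e) false).continuousOn.mono fun s _ => d s)).comp
      (sm_hZ C (.inr (h.fr e))).continuous
  refine ((isCompact_univ.prod (isCompact_Icc (a := -1) (b := 1))).image (f := C.nj c (x e))
    (continuous_iff_continuousAt.2 fun q =>
      (C.ld_nj (Mark.j_not_mem c (.inr (h.fr e)))).contMDiffAt.continuousAt)).of_isClosed_subset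
    (isClosed_Icc.preimage ct) fun z hz => ?_
  have m := strictMonoOn_len (t e) false
  have k1 : -1 < hZ C c (x e) z := (m.lt_iff_lt (d (X212.M.pm false)) (d _)).1
    ((len_pm (t e) false).trans_lt ((hw.s0 e).trans_le hz.1))
  have k2 : hZ C c (x e) z < 1 := (m.lt_iff_lt (d _) (d _)).1 (hz.2.trans_lt (hw.s1 e))
  obtain ⟨y, -, hy⟩ := exists_of_hZ C (.inr (h.fr e)) (z := z) (abs_lt.2 ⟨by linarith, by linarith⟩)
  exact ⟨_, ⟨trivial, k1.le, k2.le⟩, hy⟩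

variable {Lm : LM κ lam}

theorem adm_cy {S : Scene Lm} {D : S.Dat} {i : S.L} {Wi A' h : Type} [Fintype A'] [DecidableEq A']
    [Fintype h] {r n : ℕ} {J : Job Wi (D.Λ i) A' h r n} (hJ : J.OK) {a : S.A} (ha : ¬S.M.pin a) {γ}
    (k : (J.xs a).D.Adm γ) : ∃ β, ((S.N i).cy a).yd.Adm β := by
  obtain ⟨β, rfl⟩ : ∃ β, γ = pb (J.g a) β :=
    ⟨pb (J.g a).symm γ, congrArg (pb · γ) (funext (J.g a).symm_apply_apply).symm⟩
  have hr := Tm38.cy_gRel (hJ.iso a ha) ((S.N i).okY a)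
  have s : Surjective (Prod.map (J.g a) (id : ℝ → ℝ)) := (J.g a).surjective.prodMap surjective_id
  exact ⟨β, admOn_univ.1 (s.range_eq ▸ image_univ (f := Prod.map (J.g a) id) ▸
    (hr.admOn_iff (c := cy β)).1 (admOn_univ.2 k.adm)), (J.g a).surjective.forall.2 k.tmp⟩

/-- **SB** from its leaves -/
theorem sb (hA : AnStmt Lm) (hY : YcStmt Lm) (h2 : Gl2Stmt Lm) (h3 : Gl3Stmt κ lam)
    (hC : CoreStmt κ lam) (hH : ChrStmt Lm) : SbStmt' Lm := fun y₀ P hP => by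
  obtain ⟨C, δ, hA⟩ := hA y₀ P hP
  obtain ⟨cs, hY⟩ := hY y₀ hP.y
  obtain ⟨C', C0, hC⟩ := hC cs δ
  refine ⟨C + C' * C, fun S t R c d ht hc c0 => ?_⟩
  obtain ⟨D, hA⟩ := hA S t R c d ht hc c0
  refine ⟨D, fun n m k hk => (hA n m k hk).mono fun T hA Z h1 sm ⟨δ', d0, hX⟩ hI =>
    (((hA Z h1 sm hI).and hX).and hI).mono fun Adm ⟨⟨hA, hX⟩, hE, _⟩ q y kk ha hy hF => ?_⟩
  have h0 : Z0.OK ⟨t, c, d, n, D, m, k⟩ R := ⟨hP, ht, hc, hk⟩
  replace hY := hY S t R c d ht hc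
  obtain ⟨w, w1, w2, w3⟩ := hA q y ha hy
  have hJ := Rb56.okJ h1
  have hm := Rb56.mem h1
  have pt := Rb56.pt (T := 3 / 4) h0 { h1 with F := { h1.F with T := ⟨h1.F.T.2.1, h1.F.T.2⟩ } } hy
  have fz : ∀ e, wl t e ∈ S.fz := fun e => by cases e; exacts [ht.fz.2.2.1, ht.fz.2.1]
  have dj := (hY true).2.2.2
  have ne : ∀ e, wl t e ∉ Z.e.1 := fun e k => by
    rcases Rb56.cases h0 h1 k with i | i
    · obtain ⟨u, hu, -⟩ := (S.M.sys.w (wl t e)).ne true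
      refine disjoint_left.1 dj (.inr (i ▸ hu :)) ?_
      cases e
      exacts [.inl ((hY true).2.2.1 hu), .inr hu]
    · exact Rb56.nfz h0 h1 i.1 (fz e)
  have hf := fun e => (pt.2.1 _ (fz e)).1
  have par := hy.par hJ hm
  have two : Two S.M (wl t) cs Z.e (Z.J.Θ y.s) := ⟨par, hy.inf, fun e => ⟨ne e, fun a k => par.2
      (lt_of_lt_of_le (by norm_num) (hf e)).ne' (Sys.inf_subset _ (hy.inf.ge k)) fun i => ne e (i ▸ k)⟩,
    fun e => (hc.ok.fz _ (fz e)).1, fun e => le_trans (by norm_num) (hf e), fun e => (hY e).1,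
    fun e => (hY e).2.1, fun e => (hY e).2.2.1⟩
  have rg : ∀ π ∈ Z1.FR y true, π ∈ Z.Rg true := fun π k => by
    unfold Z1.FR at k
    exact (@Finset.mem_filter _ _ (_) _ _).1 k |>.1
  have key : ∀ π ∈ Z1.FR y true, kk π ≤ Z1.Kp y π - ∫ x in D.W.pc Z.e (ou Z.e π),
      (1 - gw w y x) * y.kd x ∂(Z.J.G Z.e y.s).F.μ + C' * En y (D.W.pc Z.e (ou Z.e π) ∩ Kw w y) := by
    intro π hπ
    obtain ⟨fx, ι, _, _, e, d', l, hl⟩ := hF π hπ
    refine le_of_forall_pos_le_add fun γ g0 => ?_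
    have g1 : 0 < γ / (1 + C') := by positivity
    have g2 : γ / (1 + C') + C' * (γ / (1 + C')) = γ := by field_simp
    obtain ⟨p', y', s⟩ := h2 y₀ P S _ R Z T δ' Adm q y π cs w δ _ h0 h1 sm d0 hX hE ha hy hπ fx two dj w1 g1
    have pπ : t.Pc true (pe Z.e) π := Rb56.mem_Rg.1 (rg π hπ)
    obtain ⟨_, _, _, _, pn, s'⟩ := h3 _ _ _ _ _ _ D.B (D.b Z.i) _ _ _ _ _ _ _ _ _ _ _ _ _ D.nrm
      (D.lnrm _) D.std (D.lstd _) w1 s (fun a k k' => ⟨Rb56.cyl_m h0 h1 ⟨k.1, k'⟩,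
        adm_cy hJ k' (Bki64.crit_adm (hy.crit a ⟨k.1, k'⟩ true))⟩) fun a k =>
      (Finset.mem_insert.1 (pπ.1.bd_subset k)).symm.imp (fun i => (Rb56.mem_pe.1 i).2) fun i => by
        subst i
        obtain ⟨b, hb⟩ := Sys.mem_bd.1 k
        obtain ⟨u, hu⟩ := (S.M.sys.w t.a).ne b
        exact ⟨(S.M.sys.w t.a).sd_inj hu.2 (pπ.2 (pπ.1.adj _ _ hb hu)) ▸ hb, dj⟩
    obtain ⟨v, v1, v2, v3⟩ := hC _ _ _ _ _ _ _ _ _ _ _ _ _ _ _ _ _ w1 s' pn
    have := (hl v (v1.mono (show t.V π ⊆ Oh t π from fun u hu => ⟨hu.1.1, .inl hu.1.2⟩)) (hH y₀ S t R c d Z.i Z.σ _ π v hP.y ht hc h1.c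
      (fun a k => (Rb56.cases h0 h1 (Rb56.mem_pe.1 k).1).elim
        (fun i => ((hc.ok.fz _ ht.fz.1).1 (i ▸ (Rb56.mem_pe.1 k).2 :)).elim) And.left)
      (fun a k => (Rb56.mem_pe.1 k).2) pπ v1 v2)).trans (v3 ι e d' (t.V π) (Set.ext fun u =>
        ⟨fun k => ⟨⟨⟨k.1.1, .inl k.1.2⟩, k.1.2⟩, k.2⟩, fun k => ⟨⟨(k.1.1 : u ∈ Oh t π).1, k.1.2⟩, k.2⟩⟩) l)
    linarith
  have cp : IsCompact (Kw w y) := Wd.cpt _ two (fun _ => rfl) w1
  have iF := Loc8.intOn_cp (F := (Z.J.G Z.e y.s).F) (Loc8.cont_F2 ((D.Λ Z.i).B_ok _ _)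
    ((D.Λ Z.i).G_ok _ (hy.ok hJ hm).2) hy.sol.ok hy.sol.conn) cp
  have pc := fun π k => (sm.pc true π (rg π k)).1
  have en : ∑ π ∈ Z1.FR y true, En y (D.W.pc Z.e (ou Z.e π) ∩ Kw w y) ≤ En y (Kw w y) := by
    refine (integral_biUnion_finset _ (fun π k => (Cyl58.isOpen_pc _ (pc π k)).measurableSet.inter
      cp.measurableSet) (fun π k π' k' i => (Cyl58.disjoint_pc _ (pc π k) (pc π' k') fun j => i
        (sm.inj (Finset.mem_coe.2 (Finset.mem_union_right _ (rg π k)))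
          (Finset.mem_coe.2 (Finset.mem_union_right _ (rg π' k'))) j)).mono
            inter_subset_left inter_subset_left) fun π _ => iF.mono_set inter_subset_right).ge.trans ?_
    exact setIntegral_mono_set iF (.of_forall fun _ => sq_nonneg _)
      (iUnion₂_subset fun _ _ => inter_subset_right).eventuallyLE
  have := Finset.sum_le_sum key
  rw [Finset.sum_add_distrib, Finset.sum_sub_distrib, ← Finset.mul_sum] at this
  linarith [w3 _ rg, mul_le_mul_of_nonneg_left (en.trans w2) C0]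

end Crest.Agent.X212.Sb84
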